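import Mathlib.Analysis.InnerProductSpace.Dual
import Mathlib.Analysis.Normed.Lp.MeasurableSpace
import Mathlib.MeasureTheory.Constructions.HaarToSphere

/-!
# P219: definitions for the analytic part (Part A)

`HData n` packages what the analytic part needs to know about a Cartan-Hadamard metric on `ℝ^n`,
written in a continuous orthonormal frame `L x` (so `g_x(v,v) = ‖Li x v‖²`).
-/

namespace Vale.Agent.Lib.P219

open MeasureTheory Set Filter Topology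
open scoped ENNReal

noncomputable section

/-- The model space. -/
abbrev Ev (n : ℕ) := EuclideanSpace ℝ (Fin n)

/-- A Cartan-Hadamard metric on `ℝ^n` seen through its geodesic flow, in an orthonormal frame. -/
structure HData (n : ℕ) where
  /-- frame: `L x` maps the model space isometrically onto `(T_x M, g_x)` -/
  L : Ev n → (Ev n →L[ℝ] Ev n)
  /-- inverse frame -/
  Li : Ev n → (Ev n →L[ℝ] Ev n)
  L_cont : Continuous L
  Li_cont : Continuous Li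
  L_Li : ∀ x v, L x (Li x v) = v
  Li_L : ∀ x v, Li x (L x v) = v
  /-- geodesic flow in the frame: position and frame components of the velocity -/
  fl : ℝ → Ev n × Ev n → Ev n × Ev n
  fl_cont : Continuous (fun p : ℝ × (Ev n × Ev n) => fl p.1 p.2)
  fl_zero : ∀ v, fl 0 v = v
  fl_add : ∀ s t v, fl (s + t) v = fl s (fl t v)
  fl_norm : ∀ t v, ‖(fl t v).2‖ = ‖v.2‖
  fl_smul : ∀ t c x w, fl t (x, c • w) = ((fl (c * t) (x, w)).1, c • (fl (c * t) (x, w)).2)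
  fl_deriv : ∀ t v, HasDerivAt (fun s => (fl s v).1) (L (fl t v).1 (fl t v).2) t
  /-- derivative of the exponential map in frames -/
  P : Ev n → Ev n → (Ev n →L[ℝ] Ev n)
  P_cont : Continuous (fun p : Ev n × Ev n => P p.1 p.2)
  exp_deriv : ∀ x w, HasFDerivAt (fun w' => (fl 1 (x, w')).1)
    ((L (fl 1 (x, w)).1).comp (P x w)) w
  P_zero : ∀ x ξ, P x 0 ξ = ξ
  /-- nonpositive curvature: `|J|/t` is nondecreasing -/
  P_mono : ∀ x w ξ, ∀ s t : ℝ, 0 ≤ s → s ≤ t → ‖P x (s • w) ξ‖ ≤ ‖P x (t • w) ξ‖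
  /-- Gauss lemma -/
  P_gauss : ∀ x w ξ, inner ℝ (fl 1 (x, w)).2 (P x w ξ) = inner ℝ w ξ
  /-- symmetry of the Jacobian of the exponential map (Wronskian of Jacobi fields) -/
  P_symm : ∀ x w, |(P (fl 1 (x, w)).1 (-(fl 1 (x, w)).2)).det| = |(P x w).det|
  exp_bij : ∀ x, Function.Bijective (fun w => (fl 1 (x, w)).1)
  exp_proper : ∀ K : Set (Ev n), IsCompact K →
    ∃ R : ℝ, ∀ x ∈ K, ∀ w, (fl 1 (x, w)).1 ∈ K → ‖w‖ ≤ R
  convex_exhaustion : ∀ C : Set (Ev n), IsCompact C → ∃ K : Set (Ev n), IsCompact K ∧ C ⊆ K ∧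
    ∀ x ∈ K, ∀ w, (fl 1 (x, w)).1 ∈ K → ∀ s ∈ Icc (0 : ℝ) 1, (fl 1 (x, s • w)).1 ∈ K

namespace HData

variable {n : ℕ} (H : HData n)

/-- exponential map in the frame -/
def Ex (x w : Ev n) : Ev n := (H.fl 1 (x, w)).1

/-- end velocity in the frame -/
def ve (x w : Ev n) : Ev n := (H.fl 1 (x, w)).2

/-- Jacobian of the exponential map -/
def th (x w : Ev n) : ℝ := |(H.P x w).det|

/-- density of the Riemannian measure -/
def dens (x : Ev n) : ℝ := |(H.Li x).det|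

/-- the Riemannian measure -/
def vol : Measure (Ev n) := volume.withDensity (fun x => ENNReal.ofReal (H.dens x))

/-- gradient of `u` in the frame -/
def gr (u : Ev n → ℝ) (x : Ev n) : Ev n :=
  (InnerProductSpace.toDual ℝ (Ev n)).symm ((fderiv ℝ u x).comp (H.L x))

/-- total variation -/
def A (u : Ev n → ℝ) : ℝ := ∫ x, ‖H.gr u x‖ ∂H.vol

/-- mass -/
def V (u : Ev n → ℝ) : ℝ := ∫ x, u x ∂H.vol

/-- geodesically convex sets -/
def Conv (K : Set (Ev n)) : Prop :=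
  ∀ x ∈ K, ∀ w, H.Ex x w ∈ K → ∀ s ∈ Icc (0 : ℝ) 1, H.Ex x (s • w) ∈ K

/-- admissible competitors: `C^1`, supported in `K`, values in `[0,1]`, almost indicator functions -/
structure Adm (K : Set (Ev n)) (h : ℝ) (u : Ev n → ℝ) : Prop where
  smooth : ContDiff ℝ 1 u
  supp : tsupport u ⊆ K
  nonneg : ∀ x, 0 ≤ u x
  le_one : ∀ x, u x ≤ 1
  mass_pos : 0 < H.V u
  layer : ∫ x, u x * (1 - u x) ∂H.vol ≤ h * H.V u

/-- integration over the unit sphere bundle -/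
def SM (Φ : Ev n × Ev n → ℝ≥0∞) : ℝ≥0∞ :=
  ∫⁻ x, ∫⁻ ω : Metric.sphere (0 : Ev n) 1, Φ (x, (ω : Ev n)) ∂(volume : Measure (Ev n)).toSphere ∂H.vol

end HData

/-- volume of the unit ball -/
def om (n : ℕ) : ℝ := (volume (Metric.ball (0 : Ev n) 1)).toReal

/-- A regularised certificate (flat, in the variables `r, c, c'`). -/
structure Ker (n : ℕ) where
  η : ℝ → ℝ → ℝ
  ηr : ℝ → ℝ → ℝ
  ηc : ℝ → ℝ → ℝ
  smooth : ContDiff ℝ 1 (fun p : ℝ × ℝ => η p.1 p.2)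
  deriv_r : ∀ r c, HasDerivAt (fun s => η s c) (ηr r c) r
  deriv_c : ∀ r c, HasDerivAt (fun s => η r s) (ηc r c) c
  δ : ℝ
  δ_pos : 0 < δ
  M : ℝ
  M_pos : 0 < M
  η_zero : ∀ r c, r ≤ δ → η r c = 0
  η_nonneg : ∀ r c, |c| ≤ 1 → 0 ≤ η r c
  η_le : ∀ r c, |c| ≤ 1 → η r c ≤ M
  ηr_le : ∀ r c, |c| ≤ 1 → |ηr r c| ≤ M
  ηc_le : ∀ r c, |c| ≤ 1 → |ηc r c| ≤ M
  a : ℝ
  a_pos : 0 < a
  d : ℝ
  d_pos : 0 < d
  f : ℝ → ℝ
  f_cont : Continuous f
  f_nonneg : ∀ c, 0 ≤ f c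
  K' : ℝ
  B_nonneg : ∀ r c c', 0 < r → |c| ≤ 1 → |c'| ≤ 1 →
    0 ≤ a + ((ηr r c' * (1 - c ^ 2) + η r c' / r * (n - 2 + c ^ 2)
        - |c| * |ηc r c'| * Real.sqrt ((1 - c ^ 2) * (1 - c' ^ 2)) / r - (n - 1) * c * η r c')
      + (ηr r c * (1 - c' ^ 2) + η r c / r * (n - 2 + c' ^ 2)
        - |c'| * |ηc r c| * Real.sqrt ((1 - c' ^ 2) * (1 - c ^ 2)) / r - (n - 1) * c' * η r c)) / 2
  B_lower : ∀ r c c', 0 < r → 0 < c → c ≤ 1 → 0 < c' → c' ≤ 1 →
    c * c' * (d * r - f c - f c') ≤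
      (a + ((ηr r c' * (1 - c ^ 2) + η r c' / r * (n - 2 + c ^ 2)
        - |c| * |ηc r c'| * Real.sqrt ((1 - c ^ 2) * (1 - c' ^ 2)) / r - (n - 1) * c * η r c')
      + (ηr r c * (1 - c' ^ 2) + η r c / r * (n - 2 + c' ^ 2)
        - |c'| * |ηc r c| * Real.sqrt ((1 - c' ^ 2) * (1 - c ^ 2)) / r - (n - 1) * c' * η r c)) / 2)
        * r ^ (n - 1)
  K'_bound : ∀ e : Ev n, ‖e‖ = 1 →
    ∫ ω : Metric.sphere (0 : Ev n) 1, |inner ℝ (ω : Ev n) e| * f |inner ℝ (ω : Ev n) e|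
      ∂(volume : Measure (Ev n)).toSphere ≤ K'

namespace Ker

variable {n : ℕ} (k : Ker n)

/-- the first variation kernel without the volume term -/
def gh (r c c' : ℝ) : ℝ :=
  k.ηr r c' * (1 - c ^ 2) + k.η r c' / r * (n - 2 + c ^ 2)
    - |c| * |k.ηc r c'| * Real.sqrt ((1 - c ^ 2) * (1 - c' ^ 2)) / r

/-- the first variation kernel -/
def g (r c c' : ℝ) : ℝ := k.gh r c c' - (n - 1) * c * k.η r c'

/-- the pair kernel -/
def B (r c c' : ℝ) : ℝ := k.a + (k.g r c c' + k.g r c' c) / 2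

end Ker

/-- Dimension `n` has (asymptotically sharp) certificates. -/
def HasKer (n : ℕ) : Prop :=
  ∀ ε > 0, ∃ k : Ker n, (n * om n - ε) * k.a ≤ k.d * om n - k.K'

end

end Vale.Agent.Lib.P219
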