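import Mathlib.Order.CompletePartialOrder
import Vale.Agent.Lib.P219.Defs

/-!
# P219: Riemannian metrics on `ℝ^n` (statement level definitions)
-/

namespace Vale.Agent.Lib.P219

open MeasureTheory Set Filter Topology
open scoped ENNReal ContDiff

noncomputable section

variable {n : ℕ}

/-- `g` is a smooth Riemannian metric on `ℝ^n`. -/
structure IsMetric (g : Ev n → (Ev n →L[ℝ] Ev n →L[ℝ] ℝ)) : Prop where
  smooth : ContDiff ℝ ∞ g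
  symm : ∀ x v w, g x v w = g x w v
  pos : ∀ x v, v ≠ 0 → 0 < g x v v

/-- `Γ` is the Levi-Civita connection (Christoffel map) of `g`: torsion free and metric. -/
structure IsLeviCivita (g : Ev n → (Ev n →L[ℝ] Ev n →L[ℝ] ℝ))
    (Γ : Ev n → (Ev n →L[ℝ] Ev n →L[ℝ] Ev n)) : Prop where
  symm : ∀ x v w, Γ x v w = Γ x w v
  compat : ∀ x z v w, fderiv ℝ g x z v w = g x (Γ x z v) w + g x v (Γ x z w)

/-- curvature tensor `R(v,w)z = ∇_v ∇_w z - ∇_w ∇_v z` for constant fields -/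
def curv (Γ : Ev n → (Ev n →L[ℝ] Ev n →L[ℝ] Ev n)) (x v w z : Ev n) : Ev n :=
  fderiv ℝ Γ x v w z - fderiv ℝ Γ x w v z + Γ x v (Γ x w z) - Γ x w (Γ x v z)

/-- `γ` is a geodesic defined for all times -/
def IsGeodesic (Γ : Ev n → (Ev n →L[ℝ] Ev n →L[ℝ] Ev n)) (γ : ℝ → Ev n) : Prop :=
  Differentiable ℝ γ ∧ ∀ t, HasDerivAt (deriv γ) (-(Γ (γ t) (deriv γ t) (deriv γ t))) t

/-- Cartan-Hadamard: geodesically complete with nonpositive sectional curvature -/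
structure IsCH (g : Ev n → (Ev n →L[ℝ] Ev n →L[ℝ] ℝ))
    (Γ : Ev n → (Ev n →L[ℝ] Ev n →L[ℝ] Ev n)) : Prop where
  metric : IsMetric g
  lc : IsLeviCivita g Γ
  complete : ∀ x v, ∃ γ : ℝ → Ev n, IsGeodesic Γ γ ∧ γ 0 = x ∧ deriv γ 0 = v
  sec : ∀ x v w, g x (curv Γ x v w w) v ≤ 0

/-- Gram matrix -/
def gram (g : Ev n → (Ev n →L[ℝ] Ev n →L[ℝ] ℝ)) (x : Ev n) : Matrix (Fin n) (Fin n) ℝ :=
  fun i j => g x (EuclideanSpace.single i 1) (EuclideanSpace.single j 1)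

/-- Riemannian density -/
def sqdet (g : Ev n → (Ev n →L[ℝ] Ev n →L[ℝ] ℝ)) (x : Ev n) : ℝ := Real.sqrt (gram g x).det

/-- Riemannian volume -/
def gvol (g : Ev n → (Ev n →L[ℝ] Ev n →L[ℝ] ℝ)) : Measure (Ev n) :=
  volume.withDensity (fun x => ENNReal.ofReal (sqdet g x))

/-- Riemannian divergence -/
def gdiv (g : Ev n → (Ev n →L[ℝ] Ev n →L[ℝ] ℝ)) (X : Ev n → Ev n) (x : Ev n) : ℝ :=
  (sqdet g x)⁻¹ * ∑ i, fderiv ℝ (fun y => sqdet g y * X y i) x (EuclideanSpace.single i 1)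

/-- De Giorgi perimeter -/
def per (g : Ev n → (Ev n →L[ℝ] Ev n →L[ℝ] ℝ)) (Ω : Set (Ev n)) : ℝ≥0∞ :=
  ⨆ (X : Ev n → Ev n) (_ : ContDiff ℝ 1 X ∧ HasCompactSupport X ∧ ∀ x, g x (X x) (X x) ≤ 1),
    ENNReal.ofReal (∫ x in Ω, gdiv g X x ∂(gvol g))

/-- `H` represents `g` -/
def Represents (H : HData n) (g : Ev n → (Ev n →L[ℝ] Ev n →L[ℝ] ℝ)) : Prop :=
  ∀ x v w, g x v w = inner ℝ (H.Li x v) (H.Li x w)

end

end Vale.Agent.Lib.P219
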