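import Vale.Agent.Lib.P219.Mo.Final
import Vale.Agent.Lib.P219.Geo.Bridge
import Vale.Agent.Lib.P219.Bd.PerArea
import Vale.Agent.Lib.P219.Ce.N6

/-! # P219: final assembly (kappa = 0) -/

namespace Vale.Agent.Lib.P219

open MeasureTheory Set Filter Topology
open scoped ENNReal ContDiff

variable {n : ℕ}

/-- sets of finite perimeter -/
theorem isoperimetric_per (hn : 2 ≤ n) (hk : HasKer n)
    (g : Ev n → Ev n →L[ℝ] Ev n →L[ℝ] ℝ) (Γ : Ev n → Ev n →L[ℝ] Ev n →L[ℝ] Ev n)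
    (h : IsCH g Γ) (Ω : Set (Ev n)) (hΩ : Bornology.IsBounded Ω) (hm : MeasurableSet Ω) :
    ENNReal.ofReal (n * om n ^ ((1 : ℝ) / n)) * (gvol g Ω) ^ (((n : ℝ) - 1) / n) ≤ per g Ω := by
  obtain ⟨H, hH⟩ := P219G.exists_HData_of_isCH g Γ h
  exact isoperimetric_of_HData hn hk h.metric hH hΩ hm

/-- domains with smooth boundary -/
theorem isoperimetric_area (hn : 2 ≤ n) (hk : HasKer n)
    (g : Ev n → Ev n →L[ℝ] Ev n →L[ℝ] ℝ) (Γ : Ev n → Ev n →L[ℝ] Ev n →L[ℝ] Ev n)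
    (h : IsCH g Γ) (ρ : Ev n → ℝ) (hρ : P219G.IsDefiningFunction ρ) :
    ENNReal.ofReal (n * om n ^ ((1 : ℝ) / n)) * (gvol g {x | ρ x < 0}) ^ (((n : ℝ) - 1) / n)
      ≤ P219G.area g ρ := by
  refine (isoperimetric_per hn hk g Γ h {x | ρ x < 0} hρ.bounded ?_).trans ?_
  · exact (isOpen_lt hρ.smooth.continuous continuous_const).measurableSet
  · exact P219G.per_le_area g ⟨h.metric.smooth, h.metric.symm, h.metric.pos⟩ ρ hρ

end Vale.Agent.Lib.P219
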